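import Crest.Agent.X212.Fil70.Main
import Crest.Agent.X212.Lix26.Geo
import Crest.Agent.X212.Rfl83.Lx
import Crest.Agent.X212.Msi61.Lcy
import Crest.Agent.X212.Cl59.Main
import Crest.Agent.X212.Tw51.Main
import Crest.Agent.X212.Sep15.LxAs
import Crest.Agent.X212.Lxd19.Deck

/-! # Row 212, LIX-FIL (helper70): the fillers, with all leaves -/

set_option autoImplicit false
noncomputable section

namespace Crest.Agent.X212.Fil70
open An M G75 Lix26

/-- **LIX-FIL** from the hypotheses on the model -/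
theorem filA {κ lam : Type} [Fintype κ] [Fintype lam] [DecidableEq lam] {Lm : LM κ lam}
    (H : Lns95.LH Lm) {S : Scene Lm} {D : S.Dat} {i : S.L} {Wi A' h : Type} [Fintype A']
    [DecidableEq A'] [Fintype h] {r n : ℕ} (J : Job Wi (D.Λ i) A' h r n) (c : S.M.Cl) (hS : S.OK)
    (hJ : J.OK) : ∃ δ₀ > (0 : ℝ), ∀ δ ≤ δ₀, ∀ l ∈ S.ls, l ∈ c.1 → FilAt J c δ l :=
  fil (geo2 H Lxd19.deck) J c (Rfl83.refl lam) (fun _ => Msi61.cyStmt _)
    (fun _ => Cl59.cl _ _ _ (Tw51.tw _ _ _ _)) (fun _ => Sep15.Lx.as_ _ _) hS hJ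

end Crest.Agent.X212.Fil70
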