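import Crest.Agent.X212.Lix26.Defs
import Crest.Agent.X212.Qmd96.Mod
import Crest.Agent.X212.Cay24.Qa
import Crest.Agent.X212.Qa50.Add

/-!
# Row 212, LIX-FIL (helper70): the fillers inside a lens wall (`Lix26.FilAt`)
-/

set_option autoImplicit false
set_option linter.unusedSectionVars false
noncomputable section
open scoped Manifold ContDiff Topology Real
open Set Function Filter MeasureTheory
open Crest.Agent.R208.F (Ext)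

namespace Crest.Agent.X212.Fil70
open An Nd18 Num57 Qab60 Lns95 Rdc90 Lix26
open M (Mf)
open Dr59 (dM Dg)
open Abel74 (fm)
open Rf65 (dz)

section cyl
variable {Y : Mf 3} [CompactSpace Y.M] {κ : Type} [Fintype κ] {lam : Type} [Fintype lam]
  {E : Type} [NormedAddCommGroup E] [NormedSpace ℝ E] [FiniteDimensional ℝ E]
  [MeasurableSpace E] [BorelSpace E]
  {HM : Type} [TopologicalSpace HM] {I : ModelWithCorners ℝ E HM} [I.Boundaryless]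
  {M : Type} [TopologicalSpace M] [ChartedSpace HM M] [IsManifold I ∞ M] [T2Space M]
  [MeasurableSpace M] [BorelSpace M] [SecondCountableTopology M]

theorem fo_ind {Ω : Set M} (hΩ : IsClopen Ω) {k : ℕ} {b : M → Ext E} (h1 : Dr59.Sm I Ω b)
    (h2 : Dg k Ω b) : Fo I k (Ω.indicator b) ∧ ∀ x ∈ Ω, dM I (Ω.indicator b) x = dM I b x := by
  have e : ∀ x ∈ Ω, Ω.indicator b =ᶠ[𝓝 x] b := fun x hx =>
    eventually_of_mem (hΩ.isOpen.mem_nhds hx) fun y hy => indicator_of_mem hy b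
  refine ⟨⟨fun x => ?_, fun x => ?_⟩, fun x hx => Dr59.dM_congr (e x hx)⟩ <;> by_cases hx : x ∈ Ω
  · exact (h1 x hx).congr (e x hx)
  · exact Dr59.cAt_zero.congr (eventually_of_mem (hΩ.isClosed.isOpen_compl.mem_nhds hx)
      fun y hy => indicator_of_notMem hy b)
  · rw [indicator_of_mem hx]; exact h2 x hx
  · rw [indicator_of_notMem hx]; exact R208.FI.IsDeg.zero

variable [DecidableEq lam] {D : YD Y.I Y.M κ (lam ⊕ lam)}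
  {B : Base M (Option κ) (lam ⊕ lam)} {G : Geo I M (Option κ) (lam ⊕ lam)} {K : Nk D B G}
  {Ω : Set M} {d : Mdl K Ω} {r : ℕ}

/-- a flat abelian point inside -/
theorem flat (hR : ReflStmt I M lam) (hd : d.OK) {x : Cfg M (Option κ) (lam ⊕ lam) r}
    (hx : x.Adm B G) : ∃ (c : Cfg M (Option κ) (lam ⊕ lam) r) (ξ : M → c.m.A),
      Ab B G Ω c ξ ∧ ∀ z ∈ Ω, fm G.F c.m c.W ξ z = 0 := by
  have i := hd.ins
  obtain ⟨m, W, ξ, h1, h2, h3, h4⟩ := Qmd96.modStmt I M (Option κ) lam d.L G.F B.o B Ω 0 i.tam.ok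
    hd.lo hd.eB i.cl.isOpen (hR d.o Ω d.Ds d.P d.μ d.L d.s i.tam.ok.h4 hd.hμ hd.lo hd.fr)
  rw [← hd.eG] at h2
  obtain ⟨c, ξ', u, v, A, -, -, -, e⟩ := Cay24.pstStmt (I := I) (M := M) r B G Ω m W ξ x i.hB i.hG i.cl
    h1 h2 h3 ((Tmp64.admOn_univ.2 hx).mono (subset_univ _))
  obtain ⟨a1, -, a2, -⟩ := Qa50.addStmt I M (Option κ) (lam ⊕ lam) r B G Ω c ξ' i.hB i.hG i.cl A
  obtain ⟨b, b1, b2, b3⟩ := (h4.congr (b := fm G.F c.m c.W ξ') fun z hz => by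
    rw [e hz, smul_zero, sub_zero]).deg (k := 1) fun z _ => a2.fo.dg z
  obtain ⟨f1, f2⟩ := fo_ind i.cl b1 b2
  obtain ⟨A', e'⟩ := a1 _ f1.neg fun z hz => by rw [Pi.neg_apply, indicator_of_notMem hz, neg_zero]
  exact ⟨ada G.F c ξ' (-Ω.indicator b), ξ', A', fun z hz => (congrFun e' z).trans (by
    rw [Pi.add_apply, Dr59.dM_neg, Pi.neg_apply, f2 z hz, b3 z hz, add_neg_cancel])⟩

/-- the curvature of a twist -/
theorem fm_tw (hd : d.OK) {j : ℤ} {c₀ c : Cfg M (Option κ) (lam ⊕ lam) r} {ξ₀ : M → c₀.m.A}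
    {ξ : M → c.m.A} (h0 : ∀ z ∈ Ω, fm G.F c₀.m c₀.W ξ₀ z = 0) (h : d.Tw j c₀ ξ₀ c ξ) :
    EqOn (fm G.F c.m c.W ξ) ((j / 2 : ℝ) • d.w) Ω := fun z hz => by
  obtain ⟨v, k, ε, -, t⟩ := h
  obtain ⟨b, hb⟩ := (d.Ds.cov z).1 hz
  rw [t.fm b z hb, h0 z hz, zero_add, Pi.smul_apply, hd.wa b z hb]
  exact Dr59.dM_smul Dr59.ne0 _ ((hd.fr b).sm_fr (d.Ds.ch b).op (fun y _ => hd.lo.sa y trivial) z hb)

variable (B G K Ω) in
/-- the filler with the limit `γ` and the level `j² / 4` -/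
structure Fl (δ : ℝ) (γ : YC Y.M κ (lam ⊕ lam)) (c : Cfg M (Option κ) (lam ⊕ lam) r)
    (ξ : M → c.m.A) (j : ℕ) : Prop where
  le : j ≤ 2
  ab : Ab B G Ω c ξ
  lim : K.ELim δ c.con γ 1 atTop
  asd : ∀ x ∈ Ω, c.m.p2 B x (c.m.Fg G.F c.W x) = 0
  sq : IntegrableOn (fun x => ‖c.m.Fg G.F c.W x‖ ^ 2) Ω G.F.μ
  int : IntegrableOn (c.m.kd B G.F c.W) Ω G.F.μ
  lev : ∫ x in Ω, c.m.kd B G.F c.W x ∂G.F.μ = j ^ 2 / 4
  odd : j = 1 → dz D γ ≠ 3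

variable (I M D) in
theorem core (hR : ReflStmt I M lam) (hY : CyStmt D) (hC : ClStmt I M D) (hA : AsStmt I M D)
    (hD : D.OK) : ∃ δ > (0 : ℝ), ∀ (r : ℕ) (B : Base M (Option κ) (lam ⊕ lam))
      (G : Geo I M (Option κ) (lam ⊕ lam)) (K : Nk D B G) (Ω : Set M) (d : Mdl K Ω)
      (x : Cfg M (Option κ) (lam ⊕ lam) r) γ, d.OK → x.Adm B G → Bs D γ →
      ∃ (c : Cfg M (Option κ) (lam ⊕ lam) r) (ξ : M → c.m.A) (j : ℕ), Fl B G K Ω δ γ c ξ j := by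
  obtain ⟨δ, h0, hA⟩ := hA hD
  refine ⟨δ, h0, fun r B G K Ω d x γ hd hx hγ => ?_⟩
  have i := hd.ins
  obtain ⟨c₀, ξ₀, A₀, f₀⟩ := flat hR hd hx
  obtain ⟨-, η, R⟩ := hY d.cv hd.cv γ hγ
  obtain ⟨j, c, ξ, hj, A, t, s, o⟩ := hC r B G K Ω d c₀ ξ₀ γ η hd A₀ f₀ hγ R
  obtain ⟨a, a1, a2, a3, a4, a5, a6, a7⟩ := hA r B G K Ω d.w c ξ _ γ i A (fm_tw hd f₀ t) hγ s
  refine ⟨ada G.F c ξ a, ξ, j.natAbs, by have := abs_le.1 hj; omega,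
    ((Qa50.addStmt I M _ _ r B G Ω c ξ i.hB i.hG i.cl A).1 a a1 a2).1, a3, a4, a5, a6,
    a7.trans ?_, fun e => o (Int.natAbs_odd.1 (e ▸ odd_one))⟩
  rw [Nat.cast_natAbs, Int.cast_abs, sq_abs]
  ring

end cyl

section job
open M Rf65
variable {Wi : Type} {X : Mf 4} {A κ lam : Type} [Fintype A] [Fintype κ] [Fintype lam]
  [DecidableEq lam] {M : Mark X A κ} {W : World M} {N : ML M lam} {Λ : Lns W N}
  {A' h : Type} [Fintype A'] [DecidableEq A'] [Fintype h] {r n : ℕ}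
  {J : Job Wi Λ A' h r n} {c : M.Cl} {l : A}

theorem hp_some {a : A} {b b' : Bool} : hp l b a = some b' ↔ a = l ∧ b' = b := by
  by_cases e : a = l <;> simp [Rf65.hp, e, eq_comm]

theorem pc_hp (np : ¬M.pin l) : W.pc c (hp l false) = W.φ c '' (M.sys.w l).sd false := by
  have e : M.sys.U (hp l false) = (M.sys.w l).sd false :=
    Subset.antisymm (fun _ k => k l false (hp_some.2 ⟨rfl, rfl⟩)) fun _ k _ _ e =>
      (hp_some.1 e).1 ▸ (hp_some.1 e).2 ▸ k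
  rw [Caps.pc, e, union_eq_left]
  rintro _ ⟨a, b, h1, h2, -⟩
  exact (np ((hp_some.1 h2).1 ▸ h1)).elim

/-- the object of a filler -/
theorem obj {δ δ' : ℝ} (hδ : δ < δ') (y : J.Obc c) (ha : Act J.m c l (some false) (J.Θ y.s))
    {γ : YC (J.xs l).Y.M κ (lam ⊕ lam)} (hγ : Bs (J.xs l).D γ)
    {x : Cfg (W.Z c).M (Option κ) (lam ⊕ lam) r} {ξ : (W.Z c).M → x.m.A} {j : ℕ}
    (f : Fl (J.B c) (J.G c y.s) (J.K c l _ _ ha) (W.pc c (hp l false)) δ' γ x ξ j) :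
    ∃ (z : J.Obc c) (ξ : _) (j : ℕ), j ≤ 2 ∧ z.s = y.s ∧ Go δ z {hp l false} ∧
      Ab (J.B c) (J.G c z.s) (W.pc c (hp l false)) z.x ξ ∧ EA 0 z (hp l false) ∧
      (J.xs l).D.Eqv γ (z.β l false) ∧ kI z l = j ^ 2 / 4 ∧ (j = 1 → dz (J.xs l).D γ ≠ 3) := by
  classical
  obtain ⟨β, rfl⟩ : ∃ β : ∀ a, Bool → YC (J.xs a).Y.M κ (lam ⊕ lam), β l false = γ :=
    ⟨update y.β l fun _ => γ, by rw [update_self]⟩
  refine ⟨⟨y.s, x, y.H, fun _ => 0, β, y.ζ, y.k, y.j, y.l⟩, ξ, j, f.le, rfl,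
    ⟨ha.2.1, ha.2.2.1, ⟨f.ab.adm.ok, f.ab.adm.conn, contMDiff_const, fun _ => map_zero _⟩, ?_, ?_,
      (An.un_one W.toCaps c _).symm ▸ f.int⟩, f.ab, ⟨f.sq, ?_⟩, ?_, f.lev, f.odd⟩
  · rintro ⟨⟨a, k⟩, b⟩ ⟨_, rfl, e'⟩
    obtain ⟨rfl, rfl⟩ := hp_some.1 e'
    exact hγ
  · rintro ⟨⟨a, k⟩, b⟩ ⟨_, rfl, e'⟩ ha'
    obtain ⟨rfl, rfl⟩ := hp_some.1 e'
    exact ⟨δ', hδ, f.lim⟩
  · rw [zero_pow two_ne_zero, zero_mul]
    exact (setIntegral_eq_zero_of_forall_eq_zero fun z hz => by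
      rw [show x.m.p2 (J.B c) z _ = 0 from f.asd z hz, norm_zero, zero_pow two_ne_zero]).le
  · exact ⟨_, _, Eqv71.ceq_refl hγ.ok.B hγ.ok.G
      ⟨hγ.adm.adm.ok, hγ.adm.adm.conn, hγ.adm.adm.sm, hγ.adm.adm.pos⟩ isOpen_univ⟩

end job

section scene
open M G75
variable {κ lam : Type} [Fintype κ] [Fintype lam] [DecidableEq lam] {Lm : LM κ lam}

/-- **LIX-FIL** -/
theorem fil (hG : Geo2Stmt Lm) {S : Scene Lm} {D : S.Dat} {i : S.L} {Wi A' h : Type} [Fintype A']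
    [DecidableEq A'] [Fintype h] {r n : ℕ} (J : Job Wi (D.Λ i) A' h r n) (c : S.M.Cl)
    (hR : ReflStmt (D.W.Z c).I (D.W.Z c).M lam) (hY : ∀ l, CyStmt (J.xs l).D)
    (hC : ∀ l, ClStmt (D.W.Z c).I (D.W.Z c).M (J.xs l).D)
    (hA : ∀ l, AsStmt (D.W.Z c).I (D.W.Z c).M (J.xs l).D) (hS : S.OK) (hJ : J.OK) :
    ∃ δ₀ > (0 : ℝ), ∀ δ ≤ δ₀, ∀ l ∈ S.ls, l ∈ c.1 → FilAt J c δ l := by
  choose d d0 H using fun l => core _ _ (J.xs l).D hR (hY l) (hC l) (hA l) (hJ.xs l).1.yd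
  obtain ⟨δ₀, h0, h1⟩ : ∃ δ₀ > (0 : ℝ), ∀ l, δ₀ < d l :=
    ((eventually_all.2 fun l => (eventually_lt_nhds (d0 l)).filter_mono
      (nhdsWithin_le_nhds (s := Ioi 0))).and self_mem_nhdsWithin).exists.imp fun _ k => ⟨k.2, k.1⟩
  refine ⟨δ₀, h0, fun δ hδ l hl hc y γ h2 h3 hx hγ => ?_⟩
  have ha : Act J.m c l (some false) (J.Θ y.s) := ⟨hS.lsp l hl, h2, h3, hc⟩
  obtain ⟨m, hm, -⟩ := hG S D i ⟨l, hl⟩ J.m c (J.Θ y.s) Wi (J.xs l) (J.g l) (J.K c l _ _ ha) hS ha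
    (hJ.xs l).1 (hJ.nk c l _ _ ha)
  obtain ⟨x, ξ, j, f⟩ := H l r _ _ _ _ m y.x γ hm hx hγ
  refine obj (x := x) (ξ := ξ) (j := j) (hδ.trans_lt (h1 l)) y ha hγ ?_
  rw [pc_hp ha.1]
  exact f

end scene

end Crest.Agent.X212.Fil70
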